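import Vale.Agent.P269.G1.ZSpec
import Vale.Agent.P269.G1.H598.Cor

/-!
# [ZD2] the series of the Virasoro coefficients in genus one
-/

namespace Vale.Agent.P269.G1.H980

open Finset.HasAntidiagonal (antidiagonal)
open Vale.Agent.P269.CI Vale.Agent.P269.G1 Vale.Agent.P269.G1.H598

section gen

variable {n : ℕ} {K : Type*} [CommRing K] [Algebra ℚ K]

/-- the coefficients of a variable -/
def dlt (k : Fin n) (L : List (Fin n)) : K := if L = [k] then 1 else 0

theorem sym_dlt (k : Fin n) : Sym (dlt (K := K) k) := by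
  intro L M h
  unfold dlt
  have : L = [k] ↔ M = [k] := by
    constructor
    · intro hL
      rw [hL] at h
      exact List.perm_singleton.1 h.symm
    · intro hM
      rw [hM] at h
      exact List.perm_singleton.1 h
  simp only [this]

theorem lst_eq_singleton (α : Fin n →₀ ℕ) (k : Fin n) :
    lst α = [k] ↔ α = Finsupp.single k 1 := by
  constructor
  · intro h
    ext j
    rw [← count_lst α j, h, Finsupp.single_apply, List.count_singleton]
    by_cases hk : k = j
    · simp [hk]
    · simp [hk]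
  · intro h
    have h1 : (lst (0 + Finsupp.single k 1)).Perm (k :: lst (0 : Fin n →₀ ℕ)) := lst_add 0 k
    rw [zero_add, lst_zero] at h1
    rw [h]
    exact List.perm_singleton.1 h1

theorem toSer_dlt (k : Fin n) : toSer (dlt (K := K) k) = MvPowerSeries.X k := by
  classical
  ext α
  rw [coeff_toSer, MvPowerSeries.coeff_X]
  unfold dlt
  simp only [lst_eq_singleton]
  by_cases h : α = Finsupp.single k 1
  · rw [if_pos h, h]
    have : ∏ i, ((Finsupp.single k 1 : Fin n →₀ ℕ) i).factorial = 1 := by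
      apply Finset.prod_eq_one
      intro i _
      rw [Finsupp.single_apply]
      split <;> rfl
    rw [this]
    simp
  · rw [if_neg h, smul_zero]

theorem shf_zero (L : List (Fin n)) : ∀ B : List (Fin n) → K, shf L (fun _ => 0) B = 0 := by
  induction L with
  | nil => intro B; simp [shf]
  | cons i L ih => intro B; rw [shf, ih, ih, add_zero]

theorem shf_nil (L : List (Fin n)) : ∀ B : List (Fin n) → K,
    shf L (fun M => if M = [] then 1 else 0) B = B L := by
  induction L with
  | nil => intro B; simp [shf]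
  | cons i L ih =>
    intro B
    rw [shf, ih]
    have : (fun M : List (Fin n) => if i :: M = [] then (1 : K) else 0) = fun _ => 0 := by
      funext M
      simp
    rw [this, shf_zero, zero_add]

theorem shf_dlt (k : Fin n) (L : List (Fin n)) : ∀ B : List (Fin n) → K,
    shf L (dlt k) B = ∑ j : Fin L.length, if L.get j = k then B (L.eraseIdx j) else 0 := by
  induction L with
  | nil => intro B; simp [shf, dlt]
  | cons i L ih =>
    intro B
    rw [shf, ih]
    have h1 : (∑ j : Fin (i :: L).length,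
        if (i :: L).get j = k then B ((i :: L).eraseIdx j) else 0) =
        (if i = k then B L else 0) +
          ∑ j : Fin L.length, if L.get j = k then B (i :: L.eraseIdx j) else 0 :=
      Fin.sum_univ_succ (n := L.length) _
    rw [h1]
    congr 1
    by_cases h : i = k
    · rw [if_pos h]
      have : (fun M : List (Fin n) => dlt (K := K) k (i :: M)) =
          fun M => if M = [] then 1 else 0 := by
        funext M
        simp [dlt, h]
      rw [this, shf_nil]
    · rw [if_neg h]
      have : (fun M : List (Fin n) => dlt (K := K) k (i :: M)) = fun _ => 0 := by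
        funext M
        simp [dlt, h]
      rw [this, shf_zero]

theorem toSer_zero' : toSer (fun _ : List (Fin n) => (0 : K)) = 0 := by
  ext α
  rw [coeff_toSer, smul_zero]
  rfl

theorem toSer_sum {σ : Type*} (s : Finset σ) (A : σ → List (Fin n) → K) :
    toSer (fun L => ∑ x ∈ s, A x L) = ∑ x ∈ s, toSer (A x) := by
  classical
  induction s using Finset.induction_on with
  | empty => simpa using toSer_zero'
  | insert a s ha ih =>
    rw [Finset.sum_insert ha, ← ih, ← toSer_add']
    congr 1
    funext L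
    exact Finset.sum_insert ha

/-- the series of a sum over the entries of a list -/
theorem toSer_entries (g : Fin n → List (Fin n) → K) (hg : ∀ k, Sym (g k)) :
    toSer (fun L => ∑ j : Fin L.length, g (L.get j) (L.eraseIdx j)) =
      ∑ k, MvPowerSeries.X k * toSer (g k) := by
  have h1 : ∀ k, MvPowerSeries.X k * toSer (g k) = toSer (fun L => shf L (dlt k) (g k)) := by
    intro k
    rw [← toSer_dlt, toSer_mul _ _ (sym_dlt k) (hg k)]
  simp only [h1]
  rw [← toSer_sum]
  congr 1
  funext L
  simp only [shf_dlt]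
  rw [Finset.sum_comm]
  refine Finset.sum_congr rfl fun j _ => ?_
  rw [Finset.sum_ite_eq]
  simp

end gen

section ser

variable {X : CompleteIntersection} {F : ℕ → ℕ → List (Ins X) → ℂ}

/-- moving an insertion through a list of even ones -/
theorem move_through (hF : IsGW X F) (g d : ℕ) (x : Ins X) (P : List (Ins X))
    (hP : ∀ p ∈ P, par X p.1 = false) : ∀ Q L : List (Ins X), F g d (Q ++ (P ++ x :: L)) =
      F g d (Q ++ (x :: (P ++ L))) := by
  induction P with
  | nil => intro Q L; rfl
  | cons p P ih =>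
    intro Q L
    have h1 := ih (fun q hq => hP q (List.mem_cons_of_mem _ hq)) (Q ++ [p]) L
    simp only [List.append_assoc, List.nil_append, List.cons_append] at h1 ⊢
    rw [h1, hF.symm g d Q (P ++ L) p x, hP p List.mem_cons_self]
    simp [sgn]

theorem set_eq (hF : IsGW X F) (g d : ℕ) (x : Ins X) (L : List (Fin (X.dim + 1)))
    (j : ℕ) (hj : j < L.length) :
    F g d ((L.map (hpow X)).set j x) = F g d (x :: (L.eraseIdx j).map (hpow X)) := by
  have h1 : (L.map (hpow X)).set j x =
      (L.take j).map (hpow X) ++ x :: (L.drop (j + 1)).map (hpow X) := by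
    rw [List.set_eq_take_append_cons_drop, if_pos (by simpa using hj), List.map_take,
      List.map_drop]
  have h2 : (L.eraseIdx j).map (hpow X) =
      (L.take j).map (hpow X) ++ (L.drop (j + 1)).map (hpow X) := by
    rw [List.eraseIdx_eq_take_drop_succ, List.map_append]
  rw [h1, h2]
  refine move_through hF g d x _ ?_ [] _
  intro p hp
  obtain ⟨k, _, rfl⟩ := List.mem_map.1 hp
  rfl

theorem linTerm_congr (K : ℕ) (x : Ins X) {G G' : Ins X → ℂ} (h : ∀ y, G y = G' y) :
    linTerm X K x G = linTerm X K x G' := by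
  rw [funext h]

theorem symS_lin (hF : IsGW X F) (K : ℕ) (x : Ins X) (g : ℕ) :
    SymS (fun d M => linTerm X K x (fun y => F g d (y :: M))) := by
  intro d L M h
  exact linTerm_congr K x fun y => symS_cor hF g [y] d L M h

/-- the linear part at an ambient insertion -/
theorem ser_lin (h1 : IsGenusOne F) (K m : ℕ) (a : Fin (X.dim + 1)) :
    ser (fun d M => linTerm X K (Sum.inl a, m) (fun y => F 1 d (y :: M))) = linS F K m a := by
  unfold linTerm linS
  rw [ser_sum]
  refine Finset.sum_congr rfl fun i _ => ?_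
  rw [ser_sum, Fintype.sum_sum_type]
  have h2 : ∀ b : Ix X, ser (fun d M => if i + 1 ≤ ((Sum.inl a, m) : Ins X).2 + K then
      esym K i ((((Sum.inl a, m) : Ins X).2 : ℂ) + 1 / 2 + mu X ((Sum.inl a, m) : Ins X).1) *
        c1pow X i ((Sum.inl a, m) : Ins X).1 b *
          F 1 d ((b, ((Sum.inl a, m) : Ins X).2 + K - 1 - i) :: M) else 0) =
      if i + 1 ≤ m + K then (esym K i ((m : ℂ) + 1 / 2 + mu X (Sum.inl a)) *
        c1pow X i (Sum.inl a) b) • ser (cor F 1 [(b, m + K - 1 - i)]) else 0 := by
    intro b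
    by_cases h : i + 1 ≤ m + K
    · simp only [h, if_true]
      rw [← ser_smul]
      rfl
    · simp only [h, if_false]
      exact ser_zero
  simp only [h2]
  rw [add_eq_left]
  refine Finset.sum_eq_zero fun v _ => ?_
  rw [cor_prim h1 1 v _ [] (by simp), smul_zero, ite_self]

theorem ser_lin_sum (hF : IsGW X F) (h1 : IsGenusOne F) (K : ℕ) :
    ser (fun d L => ∑ j : Fin L.length, linTerm X K (L.get j) (fun x => F 1 d (L.set j x))) =
      ∑ k : Fin (X.dim + 1), MvPowerSeries.X k * linS F K 0 k := by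
  have h2 := toSer_entries (n := X.dim + 1) (K := PowerSeries ℂ)
    (fun k M => PowerSeries.mk fun d =>
      linTerm X K (Sum.inl k, 0) (fun y => F 1 d (y :: M.map (hpow X))))
    (fun k => sym_of_symS (symS_lin hF K (Sum.inl k, 0) 1))
  have h3 : ∀ k : Fin (X.dim + 1), toSer (fun M => PowerSeries.mk fun d =>
      linTerm X K (Sum.inl k, 0) (fun y => F 1 d (y :: M.map (hpow X)))) = linS F K 0 k :=
    fun k => ser_lin h1 K 0 k
  simp only [h3] at h2
  rw [← h2, ser]
  congr 1
  funext L
  ext d
  rw [PowerSeries.coeff_mk, map_sum]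
  simp only [PowerSeries.coeff_mk]
  refine Fintype.sum_equiv (finCongr (by simp)) _ _ fun j => ?_
  have hj : (j : ℕ) < L.length := by simpa using j.2
  have e1 : (L.map (hpow X)).get j = (Sum.inl (L.get ⟨j, hj⟩), 0) := by
    simp [hpow]
  rw [e1]
  exact linTerm_congr K _ fun y => set_eq hF 1 d y L j hj

/-- the products of correlators of genus zero and one -/
theorem ser_prod (hF : IsGW X F) (x y : Ins X) :
    ser (fun d L => ∑ u ∈ antidiagonal 1, ∑ v ∈ antidiagonal d, shuffle X L
      (fun M => F u.1 v.1 (x :: M)) (fun M => F u.2 v.2 (y :: M))) =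
      ser (cor F 0 [x]) * ser (cor F 1 [y]) + ser (cor F 1 [x]) * ser (cor F 0 [y]) := by
  rw [← ser_mulS _ _ (symS_cor hF 0 _) (symS_cor hF 1 _),
    ← ser_mulS _ _ (symS_cor hF 1 _) (symS_cor hF 0 _), ← ser_add]
  refine ser_congr fun d L => ?_
  rw [show antidiagonal 1 = {((0 : ℕ), (1 : ℕ)), (1, 0)} from rfl,
    Finset.sum_pair (by decide)]
  rfl

theorem cor_zero_prim (h1 : IsGenusOne F) (g : ℕ) (v : X.Prim) (m : ℕ) :
    ser (cor F g [(Sum.inr v, m)]) = 0 := cor_prim h1 g v m [] (by simp)

theorem sum_reflect {M : Type*} [AddCommMonoid M] (K : ℕ) (f : ℕ → ℕ → M) :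
    ∑ m ∈ Finset.range (K - 1), ∑ i ∈ Finset.range (K - 1 - m), f m i =
      ∑ m ∈ Finset.range (K - 1), ∑ i ∈ Finset.range (K - 1 - m), f (K - 2 - m - i) i := by
  have h1 : ∀ f : ℕ → ℕ → M,
      ∑ m ∈ Finset.range (K - 1), ∑ i ∈ Finset.range (K - 1 - m), f m i =
      ∑ i ∈ Finset.range (K - 1), ∑ m ∈ Finset.range (K - 1 - i), f m i := by
    intro f
    refine Finset.sum_comm' fun m i => ?_
    simp only [Finset.mem_range]
    omega
  rw [h1 f, h1 fun m i => f (K - 2 - m - i) i]
  refine Finset.sum_congr rfl fun i _ => ?_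
  rw [← Finset.sum_range_reflect]
  refine Finset.sum_congr rfl fun m hm => ?_
  rw [Finset.mem_range] at hm
  have e : K - 1 - i - 1 - m = K - 2 - m - i := by omega
  rw [e]

theorem sum_Ix {M : Type*} [AddCommMonoid M] (f : Ix X → M) (h : ∀ v, f (Sum.inr v) = 0) :
    ∑ a, f a = ∑ a : Fin (X.dim + 1), f (Sum.inl a) := by
  rw [Fintype.sum_sum_type, Finset.sum_eq_zero (s := Finset.univ (α := X.Prim))
    (fun v _ => h v), add_zero]

theorem qco_inr (K m i : ℕ) (v : X.Prim) (b : Fin (X.dim + 1)) (c : Ix X) :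
    qco X K m i (Sum.inr v) (Sum.inl b) c = 0 := by
  unfold qco
  have : pairingInv X (Sum.inr v) (Sum.inl b) = 0 := rfl
  rw [this]
  ring

/-- one summand of the second order part -/
theorem quad_term (h1 : IsGenusOne F) (K m i n : ℕ) :
    ∑ a, ∑ b, ∑ c, qco X K m i a b c •
      (ser (cor F 0 [(b, m)]) * ser (cor F 1 [(c, n)]) +
        ser (cor F 1 [(b, m)]) * ser (cor F 0 [(c, n)])) =
      ∑ b : Fin (X.dim + 1), ∑ c : Fin (X.dim + 1),
        (∑ a : Fin (X.dim + 1), qco X K m i (Sum.inl a) (Sum.inl b) (Sum.inl c)) •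
      (ser (cor F 0 [(Sum.inl b, m)]) * ser (cor F 1 [(Sum.inl c, n)]) +
        ser (cor F 1 [(Sum.inl b, m)]) * ser (cor F 0 [(Sum.inl c, n)])) := by
  have e1 : ∀ a : Ix X, ∑ b, ∑ c, qco X K m i a b c •
      (ser (cor F 0 [(b, m)]) * ser (cor F 1 [(c, n)]) +
        ser (cor F 1 [(b, m)]) * ser (cor F 0 [(c, n)])) =
      ∑ b : Fin (X.dim + 1), ∑ c : Fin (X.dim + 1), qco X K m i a (Sum.inl b) (Sum.inl c) •
      (ser (cor F 0 [(Sum.inl b, m)]) * ser (cor F 1 [(Sum.inl c, n)]) +
        ser (cor F 1 [(Sum.inl b, m)]) * ser (cor F 0 [(Sum.inl c, n)])) := by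
    intro a
    rw [sum_Ix]
    · refine Finset.sum_congr rfl fun b _ => ?_
      rw [sum_Ix]
      intro v
      rw [cor_zero_prim h1, cor_zero_prim h1, mul_zero, mul_zero, add_zero, smul_zero]
    · intro v
      refine Finset.sum_eq_zero fun c _ => ?_
      rw [cor_zero_prim h1, cor_zero_prim h1, zero_mul, zero_mul, add_zero, smul_zero]
  simp only [e1]
  rw [sum_Ix]
  · rw [Finset.sum_comm]
    refine Finset.sum_congr rfl fun b _ => ?_
    rw [Finset.sum_comm]
    refine Finset.sum_congr rfl fun c _ => ?_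
    rw [Finset.sum_smul]
  · intro v
    refine Finset.sum_eq_zero fun b _ => Finset.sum_eq_zero fun c _ => ?_
    rw [qco_inr, zero_smul]

theorem mixS_eq' (K : ℕ) : mixS F K =
    ∑ m ∈ Finset.range (K - 1), ∑ i ∈ Finset.range (K - 1 - m),
      ∑ b : Fin (X.dim + 1), ∑ c : Fin (X.dim + 1),
        (∑ a : Fin (X.dim + 1), qco X K m i (Sum.inl a) (Sum.inl b) (Sum.inl c)) •
        (ser (cor F 0 [(Sum.inl b, m)]) * ser (cor F 1 [(Sum.inl c, K - 2 - m - i)])) := by
  unfold mixS
  refine Finset.sum_congr rfl fun m _ => Finset.sum_congr rfl fun i _ => ?_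
  rw [Finset.sum_comm]
  refine Finset.sum_congr rfl fun b _ => ?_
  rw [Finset.sum_comm]
  refine Finset.sum_congr rfl fun c _ => ?_
  rw [Finset.sum_smul]

theorem mixS_eq'' (K : ℕ) : mixS F K =
    ∑ m ∈ Finset.range (K - 1), ∑ i ∈ Finset.range (K - 1 - m),
      ∑ b : Fin (X.dim + 1), ∑ c : Fin (X.dim + 1),
        (∑ a : Fin (X.dim + 1), qco X K m i (Sum.inl a) (Sum.inl b) (Sum.inl c)) •
        (ser (cor F 1 [(Sum.inl b, m)]) * ser (cor F 0 [(Sum.inl c, K - 2 - m - i)])) := by
  rw [mixS_eq', sum_reflect]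
  refine Finset.sum_congr rfl fun m hm => Finset.sum_congr rfl fun i hi => ?_
  rw [Finset.mem_range] at hm hi
  rw [Finset.sum_comm]
  refine Finset.sum_congr rfl fun b _ => Finset.sum_congr rfl fun c _ => ?_
  have h : m + i + 2 ≤ K := by omega
  have e : K - 2 - (K - 2 - m - i) - i = m := by omega
  rw [← qco_symm K m i h b c, e, mul_comm]

/-- the second order part -/
theorem ser_quad (hF : IsGW X F) (h1 : IsGenusOne F) (K : ℕ) :
    ser (fun d L => 1 / 2 * (∑ m ∈ Finset.range (K - 1), ∑ i ∈ Finset.range (K - 1 - m),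
      ∑ a, ∑ b, ∑ c, (-1) ^ (m + 1) * esym K i (mu X a - m - 1 / 2) * pairingInv X a b *
        c1pow X i a c * ((∑ u ∈ antidiagonal 1, ∑ v ∈ antidiagonal d, shuffle X L
          (fun M => F u.1 v.1 ((b, m) :: M))
          (fun M => F u.2 v.2 ((c, K - 2 - m - i) :: M))) +
        (if 1 = 0 then 0 else F (1 - 1) d ((c, K - 2 - m - i) :: (b, m) :: L))))) =
      mixS F K + loopS F K := by
  rw [ser_smul]
  have e1 : ser (fun d L => ∑ m ∈ Finset.range (K - 1), ∑ i ∈ Finset.range (K - 1 - m),
      ∑ a, ∑ b, ∑ c, (-1) ^ (m + 1) * esym K i (mu X a - m - 1 / 2) * pairingInv X a b *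
        c1pow X i a c * ((∑ u ∈ antidiagonal 1, ∑ v ∈ antidiagonal d, shuffle X L
          (fun M => F u.1 v.1 ((b, m) :: M))
          (fun M => F u.2 v.2 ((c, K - 2 - m - i) :: M))) +
        (if 1 = 0 then 0 else F (1 - 1) d ((c, K - 2 - m - i) :: (b, m) :: L)))) =
      ∑ m ∈ Finset.range (K - 1), ∑ i ∈ Finset.range (K - 1 - m),
        (∑ a, ∑ b, ∑ c, qco X K m i a b c •
          (ser (cor F 0 [(b, m)]) * ser (cor F 1 [(c, K - 2 - m - i)]) +
            ser (cor F 1 [(b, m)]) * ser (cor F 0 [(c, K - 2 - m - i)])) +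
        ∑ a, ∑ b, ∑ c, qco X K m i a b c • W F (c, K - 2 - m - i) (b, m)) := by
    rw [ser_sum]
    refine Finset.sum_congr rfl fun m _ => ?_
    rw [ser_sum]
    refine Finset.sum_congr rfl fun i _ => ?_
    rw [ser_sum, ← Finset.sum_add_distrib]
    refine Finset.sum_congr rfl fun a _ => ?_
    rw [ser_sum, ← Finset.sum_add_distrib]
    refine Finset.sum_congr rfl fun b _ => ?_
    rw [ser_sum, ← Finset.sum_add_distrib]
    refine Finset.sum_congr rfl fun c _ => ?_
    rw [ser_smul, ser_add, ser_prod hF, smul_add]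
    rfl
  rw [e1]
  simp only [quad_term h1]
  simp only [smul_add, Finset.sum_add_distrib]
  rw [← mixS_eq', ← mixS_eq'', loopS]
  congr 1
  rw [← add_smul]
  norm_num

theorem ser_const (x : ℂ) : ser (X := X) (fun d L => if d = 0 then emptyTerm X x L else 0) =
    cst X x := by
  classical
  refine MvPowerSeries.ext fun α => ?_
  rw [cst, MvPowerSeries.coeff_C, ser, coeff_toSer]
  by_cases h : α = 0
  · rw [if_pos h, h, lst_zero]
    ext d
    simp only [List.map_nil, emptyTerm]
    rw [PowerSeries.coeff_C]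
    simp
  · rw [if_neg h]
    have h2 : lst α ≠ [] := by
      intro h3
      apply h
      ext j
      rw [← count_lst α j, h3]
      simp
    obtain ⟨y, M, hM⟩ := List.exists_cons_of_ne_nil h2
    rw [hM]
    ext d
    simp [emptyTerm]

/-- **[ZD2]** the series of the Virasoro coefficients -/
theorem ser_vir (hF : IsGW X F) (h1 : IsGenusOne F) (K : ℕ) (_hK : 1 ≤ K) :
    ser (fun d L => virasoro X F K 1 d L) =
      ∑ k : Fin (X.dim + 1), MvPowerSeries.X k * linS F K 0 k - linS F K 1 0 + mixS F K +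
        loopS F K + (if K = 1 then cst X (str X (fun _ => 1) / 16 -
          str X (fun a => mu X a ^ 2) / 4) else 0) := by
  have e1 : ser (fun d L => virasoro X F K 1 d L) =
      ser (fun d L => ∑ j : Fin L.length, linTerm X K (L.get j) (fun x => F 1 d (L.set j x))) -
      ser (fun d L => linTerm X K (Sum.inl 0, 1) (fun x => F 1 d (x :: L))) +
      ser (fun d L => 1 / 2 * (∑ m ∈ Finset.range (K - 1), ∑ i ∈ Finset.range (K - 1 - m),
      ∑ a, ∑ b, ∑ c, (-1) ^ (m + 1) * esym K i (mu X a - m - 1 / 2) * pairingInv X a b *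
        c1pow X i a c * ((∑ u ∈ antidiagonal 1, ∑ v ∈ antidiagonal d, shuffle X L
          (fun M => F u.1 v.1 ((b, m) :: M))
          (fun M => F u.2 v.2 ((c, K - 2 - m - i) :: M))) +
        (if 1 = 0 then 0 else F (1 - 1) d ((c, K - 2 - m - i) :: (b, m) :: L))))) +
      ser (fun d L => if K = 1 then (if d = 0 then emptyTerm X
        (str X (fun _ => 1) / 16 - str X (fun a => mu X a ^ 2) / 4) L else 0) else 0) := by
    rw [← ser_sub, ← ser_add, ← ser_add]
    refine ser_congr fun d L => ?_
    unfold virasoro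
    have c1 : ¬ (1 = 0 ∧ d = 0) := by omega
    rw [if_neg c1, add_zero]
    congr 1
    by_cases hK1 : K = 1
    · by_cases hd : d = 0
      · rw [if_pos ⟨hK1, rfl, hd⟩, if_pos hK1, if_pos hd]
      · rw [if_neg (by tauto), if_pos hK1, if_neg hd]
    · rw [if_neg (by tauto), if_neg hK1]
  have e2 : ser (X := X) (fun d L => if K = 1 then (if d = 0 then emptyTerm X
        (str X (fun _ => 1) / 16 - str X (fun a => mu X a ^ 2) / 4) L else 0) else 0) =
      if K = 1 then cst X (str X (fun _ => 1) / 16 - str X (fun a => mu X a ^ 2) / 4) else 0 := by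
    by_cases hK1 : K = 1
    · simp only [if_pos hK1]
      exact ser_const _
    · simp only [if_neg hK1]
      exact ser_zero
  rw [e1, e2, ser_lin_sum hF h1, ser_lin h1, ser_quad hF h1]
  ring

end ser

end Vale.Agent.P269.G1.H980
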