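import Vale.Agent.P269.G1.BSpec
import Vale.Agent.P269.G1.H980.SerVir
import Vale.Agent.P269.H861.LibgoberWood

/-!
# [DC1] restriction of vector fields to a family of ambient insertions
-/

namespace Vale.Agent.P269.G1.H980

open Finset.HasAntidiagonal (antidiagonal)
open Vale.Agent.P269.CI Vale.Agent.P269.G1
open Vale.Agent.P269.G1.H598 (toSer_add' coeff_toSer lst_zero count_lst shf_congr shf_perm)
open Vale.Agent.P269.H597 (coh Coh sh ev act tau pot coeff_pot genus0 sg lsg sh_cons sh_nil
  lsg_false ev_apply sg_false_left sg_false_right)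

variable {X : CompleteIntersection} {n : ℕ} (E : Fam X n) {F : ℕ → ℕ → List (Ins X) → ℂ}

/-- the data over the Novikov ring -/
noncomputable abbrev DX (X : CompleteIntersection) : Coh (PowerSeries ℂ) (Ix X) :=
  (coh X).map (PowerSeries.C : ℂ →+* PowerSeries ℂ)

/-- the series of a function of lists -/
noncomputable def tS (G : List (Ins X) → PowerSeries ℂ) : RB n := toSer fun L => G (L.map E.ins)

/-- symmetric -/
def symT (G : List (Ins X) → PowerSeries ℂ) : Prop := Sym fun L : List (Fin n) => G (L.map E.ins)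

theorem tS_congr {G G' : List (Ins X) → PowerSeries ℂ}
    (h : ∀ L : List (Fin n), G (L.map E.ins) = G' (L.map E.ins)) : tS E G = tS E G' := by
  unfold tS
  congr 1
  funext L
  exact h L

theorem tS_add (G G' : List (Ins X) → PowerSeries ℂ) :
    tS E (fun M => G M + G' M) = tS E G + tS E G' :=
  toSer_add' (fun L : List (Fin n) => G (L.map E.ins)) (fun L => G' (L.map E.ins))

theorem tS_zero : tS E (fun _ => 0) = 0 := toSer_zero'

theorem tS_sum {σ : Type*} (s : Finset σ) (G : σ → List (Ins X) → PowerSeries ℂ) :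
    tS E (fun M => ∑ x ∈ s, G x M) = ∑ x ∈ s, tS E (G x) :=
  toSer_sum s fun x (L : List (Fin n)) => G x (L.map E.ins)

theorem tS_smul (c : ℂ) (G : List (Ins X) → PowerSeries ℂ) :
    tS E (fun M => PowerSeries.C c * G M) = c • tS E G := by
  funext α
  change ((∏ i, (α i).factorial : ℕ) : ℚ)⁻¹ • (PowerSeries.C c * G _) =
    c • (((∏ i, (α i).factorial : ℕ) : ℚ)⁻¹ • G _)
  rw [smul_comm]
  congr 1
  exact (PowerSeries.smul_eq_C_mul _ c).symm

theorem tS_neg (G : List (Ins X) → PowerSeries ℂ) :
    tS E (fun M => - G M) = - tS E G := by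
  have h := tS_smul E (-1) G
  simp only [map_neg, map_one, neg_mul, one_mul, neg_smul, one_smul] at h
  exact h

theorem tS_mul (G G' : List (Ins X) → PowerSeries ℂ) (h : symT E G) (h' : symT E G') :
    toSer (fun L => shf L (fun M : List (Fin n) => G (M.map E.ins))
      (fun M => G' (M.map E.ins))) = tS E G * tS E G' :=
  (Vale.Agent.P269.G1.H598.toSer_mul _ _ h h').symm

theorem cb_smul (c : ℂ) (f : RB n) : c • f = cb n c * f := by
  ext α m
  rw [cb, MvPowerSeries.coeff_C_mul, PowerSeries.coeff_C_mul]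
  rfl

theorem sr_eq (A : ℕ → List (Ins X) → ℂ) :
    sr E A = tS E fun L => PowerSeries.mk fun d => A d L := rfl

/-- moving an insertion through a list of ambient ones -/
theorem move_ins (hF : IsGW X F) (g d : ℕ) (x : Ins X) (P L : List (Fin n))
    (Q : List (Ins X)) : F g d (Q ++ (P.map E.ins ++ x :: L.map E.ins)) =
      F g d (Q ++ (x :: (P.map E.ins ++ L.map E.ins))) := by
  refine move_through hF g d x _ ?_ Q _
  intro p hp
  obtain ⟨i, _, rfl⟩ := List.mem_map.1 hp
  rfl

/-- correlators are symmetric -/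
theorem symF_cor' (hF : IsGW X F) (g : ℕ) (P : List (Ins X)) : SymF E (cor F g P) := by
  intro d L M h
  unfold cor
  induction h generalizing P with
  | nil => rfl
  | cons x _ ih =>
    have h1 := ih (P ++ [E.ins x])
    simpa using h1
  | swap x y l =>
    have h1 := hF.symm g d P (l.map E.ins) (E.ins y) (E.ins x)
    have h2 : sgn (par X (E.ins y).1) (par X (E.ins x).1) = 1 := rfl
    rw [h2, one_mul] at h1
    simpa using h1
  | trans _ _ ih1 ih2 => exact (ih1 P).trans (ih2 P)

theorem symT_cor (hF : IsGW X F) (g : ℕ) (P : List (Ins X)) :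
    symT E fun L => PowerSeries.mk fun d => F g d (P ++ L) := by
  intro L M h
  ext d
  simpa [cor] using symF_cor' E hF g P d L M h

theorem ip_ins (i : Fin n) : (DX X).ip (E.ins i) = false := rfl

theorem sh_mul_amb (L : List (Fin n)) : ∀ C D : List (Ins X) → PowerSeries ℂ,
    sh (DX X).ip (LinearMap.mul (PowerSeries ℂ) (PowerSeries ℂ)) (L.map E.ins) C D =
      shf L (fun M => C (M.map E.ins)) (fun M => D (M.map E.ins)) := by
  induction L with
  | nil => intro C D; rfl
  | cons i L ih =>
    intro C D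
    rw [List.map_cons, sh_cons, ih, shf]
    have h : (fun M => lsg (PowerSeries ℂ) (DX X).ip ((DX X).ip (E.ins i)) M • C M) = C := by
      funext M
      rw [ip_ins, lsg_false, one_smul]
    rw [h, ih]
    rfl

theorem ev_T (T : Finset (Ins X)) (v : Ins X →₀ PowerSeries ℂ) (f : Ins X → PowerSeries ℂ)
    (h : ∀ x, x ∉ T → v x = 0 ∨ f x = 0) :
    ev (PowerSeries ℂ) (Ins X) (PowerSeries ℂ) v f = ∑ x ∈ T, v x * f x := by
  classical
  rw [ev_apply, Finsupp.sum]
  have h1 : ∑ x ∈ v.support, v x • f x = ∑ x ∈ v.support ∪ T, v x * f x := by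
    refine Finset.sum_subset Finset.subset_union_left fun x _ hx => ?_
    rw [Finsupp.notMem_support_iff.1 hx, zero_smul]
  have h2 : ∑ x ∈ T, v x * f x = ∑ x ∈ v.support ∪ T, v x * f x := by
    refine Finset.sum_subset Finset.subset_union_right fun x _ hx => ?_
    rcases h x hx with h3 | h3
    · rw [h3, zero_mul]
    · rw [h3, mul_zero]
  rw [h1, h2]

theorem sh_ev_amb (T : Finset (Ins X)) (L : List (Fin n)) :
    ∀ (c : List (Ins X) → (Ins X →₀ PowerSeries ℂ)) (D : List (Ins X) → Ins X → PowerSeries ℂ),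
    (∀ x, x ∉ T → (∀ M : List (Fin n), c (M.map E.ins) x = 0) ∨
      (∀ M : List (Fin n), D (M.map E.ins) x = 0)) →
    sh (DX X).ip (ev (PowerSeries ℂ) (Ins X) (PowerSeries ℂ)) (L.map E.ins) c D =
      ∑ x ∈ T, shf L (fun M => c (M.map E.ins) x) (fun M => D (M.map E.ins) x) := by
  induction L with
  | nil =>
    intro c D h
    exact ev_T T _ _ fun x hx => (h x hx).imp (fun h => h []) (fun h => h [])
  | cons i L ih =>
    intro c D h
    rw [List.map_cons, sh_cons]
    have h1 : (fun M => lsg (PowerSeries ℂ) (DX X).ip ((DX X).ip (E.ins i)) M • c M) = c := by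
      funext M
      rw [ip_ins, lsg_false, one_smul]
    rw [h1, ih, ih, ← Finset.sum_add_distrib]
    · rfl
    · intro x hx
      exact (h x hx).imp (fun h M => h M) (fun h M => h (i :: M))
    · intro x hx
      exact (h x hx).imp (fun h M => h (i :: M)) (fun h M => h M)

/-- the index set of ambient insertions of level less than `N` -/
def TT (X : CompleteIntersection) (N : ℕ) : Finset (Ins X) :=
  (Finset.range N ×ˢ (Finset.univ : Finset (Fin (X.dim + 1)))).map
    ⟨fun q => (Sum.inl q.2, q.1), fun q q' h => by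
      obtain ⟨h1, h2⟩ := Prod.mk.inj h
      exact Prod.ext h2 (Sum.inl.inj h1)⟩

theorem sum_TT {M : Type*} [AddCommMonoid M] (N : ℕ) (f : Ins X → M) :
    ∑ x ∈ TT X N, f x = ∑ p ∈ Finset.range N, ∑ b : Fin (X.dim + 1), f (Sum.inl b, p) := by
  rw [TT, Finset.sum_map, Finset.sum_product]
  rfl

theorem notMem_TT (N : ℕ) (x : Ins X) (hx : x ∉ TT X N) :
    (∃ v : X.Prim, x.1 = Sum.inr v) ∨ N ≤ x.2 := by
  obtain ⟨a, m⟩ := x
  rcases a with b | v
  · right
    by_contra h
    apply hx
    rw [TT, Finset.mem_map]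
    exact ⟨(m, b), by simpa using h, rfl⟩
  · exact Or.inl ⟨v, rfl⟩

/-- the action of a vector field, restricted to the family -/
theorem tS_act (N : ℕ) (c : List (Ins X) → (Ins X →₀ PowerSeries ℂ))
    (G : List (Ins X) → PowerSeries ℂ)
    (hc : ∀ (M : List (Fin n)) (b : Fin (X.dim + 1)) (p : ℕ), N ≤ p →
      c (M.map E.ins) (Sum.inl b, p) = 0)
    (hG : ∀ (M : List (Fin n)) (v : X.Prim) (p : ℕ), G ((Sum.inr v, p) :: M.map E.ins) = 0)
    (hcs : ∀ (b : Fin (X.dim + 1)) (p : ℕ), symT E fun M => c M (Sum.inl b, p))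
    (hGs : ∀ (b : Fin (X.dim + 1)) (p : ℕ), symT E fun M => G ((Sum.inl b, p) :: M)) :
    tS E (act (DX X).ip c G) = ∑ p ∈ Finset.range N, ∑ b : Fin (X.dim + 1),
      tS E (fun M => c M (Sum.inl b, p)) * tS E (fun M => G ((Sum.inl b, p) :: M)) := by
  have h1 : ∀ L : List (Fin n), act (DX X).ip c G (L.map E.ins) =
      ∑ x ∈ TT X N, shf L (fun M => c (M.map E.ins) x) (fun M => G (x :: M.map E.ins)) := by
    intro L
    unfold act
    refine sh_ev_amb E (TT X N) L c _ fun x hx => ?_
    obtain ⟨a, p⟩ := x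
    rcases notMem_TT N _ hx with ⟨v, hv⟩ | hN
    · right
      intro M
      have hv' : a = Sum.inr v := hv
      rw [hv']
      exact hG M v p
    · rcases a with b | v
      · left
        intro M
        exact hc M b p hN
      · right
        intro M
        exact hG M v p
  have h2 : tS E (act (DX X).ip c G) = toSer (fun L : List (Fin n) => ∑ x ∈ TT X N,
      shf L (fun M => c (M.map E.ins) x) (fun M => G (x :: M.map E.ins))) := by
    unfold tS
    congr 1
    funext L
    exact h1 L
  rw [h2, toSer_sum, sum_TT]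
  refine Finset.sum_congr rfl fun p _ => Finset.sum_congr rfl fun b _ => ?_
  exact tS_mul E (fun M => c M (Sum.inl b, p)) (fun M => G ((Sum.inl b, p) :: M)) (hcs b p)
    (hGs b p)

end Vale.Agent.P269.G1.H980
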